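import Vale.Agent.P007A.Main
import Vale.Agent.P007B.Fin
import Vale.Agent.Results.P007.Composite

namespace Vale.Agent.Results.P007.Duke

open Vale.Agent.P007 MeasureTheory Filter Topology
open scoped CompactlySupported

theorem result (m : ℕ) :
    (∃! ν : Measure (X (m + 1)), IsHaarProb ν) ∧
    (∀ (K : Type) [Field K] [NumberField K] (o : Order K (m + 1))
      (σ : Fin (m + 1) ≃ (K →+* ℝ)), (∃ μ, IsPacketMeasure o σ μ) ∧
        ∀ μ, IsPacketMeasure o σ μ → IsProbabilityMeasure μ) ∧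
    (3 ≤ m + 1 → ((m + 1).Prime ↔
      ∀ ν : Measure (X (m + 1)), IsHaarProb ν →
        ∀ (K : ℕ → Type) [∀ i, Field (K i)] [∀ i, NumberField (K i)]
          (o : ∀ i, Order (K i) (m + 1)) (σ : ∀ i, Fin (m + 1) ≃ (K i →+* ℝ))
          (μ : ℕ → Measure (X (m + 1))), (∀ i, IsPacketMeasure (o i) (σ i) (μ i)) →
          Tendsto (fun i => |(o i).disc|) atTop atTop →
          (∀ f : C_c(X (m + 1), ℝ),
            Tendsto (fun i => ∫ x, f x ∂μ i) atTop (𝓝 (∫ x, f x ∂ν))) ∧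
          ∀ ε : ℝ, 0 < ε → ∃ C : Set (X (m + 1)), IsCompact C ∧
            ∀ᶠ i in atTop, 1 - ε ≤ (μ i).real C)) := by
  obtain ⟨ν0, h0⟩ := P007A.exists_haar m
  refine ⟨⟨ν0, h0, fun ν h => haar_unique h h0⟩,
    fun K _ _ o σ => ⟨P007A.exists_pm o σ, fun μ h => P007A.pm_prob h⟩, fun h3 => ⟨?_, ?_⟩⟩
  · intro hp ν hν K _ _ o σ μ hμ hd
    have hm : Even m := by
      rcases hp.eq_two_or_odd' with h | h
      · omega
      · exact (Nat.odd_add_one.1 h |> Nat.not_odd_iff_even.1)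
    have : ∀ i, IsProbabilityMeasure (μ i) := fun i => P007A.pm_prob (hμ i)
    have hS : ∀ R : ℝ, ∃ C : ℝ, ∀ c η : ℝ, 0 ≤ c → 0 < η → η ≤ 1 →
        ∀ᶠ i in atTop, μ i (Sl (m + 1) R c η) ≤ ENNReal.ofReal (C * √η) := fun R =>
      (P007A.sl_bd m hm R).imp fun C hC => hC K o σ μ hμ hd
    refine ⟨?_, fun ε hε => ?_⟩
    · obtain ⟨ν', h1, h2⟩ := equi hp h3 μ (fun i => ai_of_tor (P007A.pm_inv (hμ i))) hS
        (P007A.mahler _)
      exact haar_unique h1 hν ▸ h2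
    · obtain ⟨C, h1, h2⟩ := tight (Nat.succ_pos m) μ ((hS 1).imp fun C hC η => hC 0 η le_rfl)
        (P007A.mahler _) (ε := ENNReal.ofReal ε) (by simpa using hε)
      refine ⟨C, h1, h2.mono fun i hi => ?_⟩
      have h4 := probReal_compl_eq_one_sub (μ := μ i) h1.measurableSet
      have h5 : (μ i).real Cᶜ ≤ ε := ENNReal.toReal_le_of_le_ofReal hε.le hi
      linarith
  · intro h
    by_contra hp
    have h4 : 4 ≤ m + 1 := by
      by_contra h4
      exact hp (by rw [show m + 1 = 3 by omega]; norm_num)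
    obtain ⟨K, i1, i2, o, -, hσ, hd, f, hf⟩ := (Composite.result m).2 h4 hp
    choose μ hμ using fun i => P007A.exists_pm (o i) (hσ i).some
    exact (hf fun i => (hσ i).some).2 ν0 μ h0 hμ ((h ν0 h0 K o _ μ hμ hd).1 f)

end Vale.Agent.Results.P007.Duke
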