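import Vale.Agent.P007A.Tight

namespace Vale.Agent.Results.P007.NoEscape

open Vale.Agent.P007 MeasureTheory Filter Topology

theorem result (m : ℕ) (hm : Odd (m + 1)) :
    (∀ (K : Type) [Field K] [NumberField K] (o : Order K (m + 1))
      (σ : Fin (m + 1) ≃ (K →+* ℝ)), (∃ μ, IsPacketMeasure o σ μ) ∧
        ∀ μ, IsPacketMeasure o σ μ → IsProbabilityMeasure μ) ∧
    ∀ (K : ℕ → Type) [∀ i, Field (K i)] [∀ i, NumberField (K i)]
      (o : ∀ i, Order (K i) (m + 1)) (σ : ∀ i, Fin (m + 1) ≃ (K i →+* ℝ))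
      (μ : ℕ → Measure (X (m + 1))), (∀ i, IsPacketMeasure (o i) (σ i) (μ i)) →
      Tendsto (fun i => |(o i).disc|) atTop atTop →
      ∀ ε : ℝ, 0 < ε → ∃ C : Set (X (m + 1)), IsCompact C ∧
        ∀ᶠ i in atTop, ENNReal.ofReal (1 - ε) ≤ μ i C :=
  ⟨fun _ _ _ o σ => ⟨P007A.exists_pm o σ, fun _ h => P007A.pm_prob h⟩,
    fun K _ _ o σ μ hμ hd _ hε =>
      P007A.tight' m (by simpa [Nat.odd_add_one] using hm) K o σ μ hμ hd hε⟩

end Vale.Agent.Results.P007.NoEscape
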